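import Vale.Agent.P267L.LT4
import Vale.Agent.P267O.Main
import Vale.Agent.P267S.SC1

/-! P267, removing the diagonalisation theorem. -/

open scoped Manifold ContDiff Topology BoundedContinuousFunction
open Filter Metric Set

noncomputable section

namespace Vale.Agent.P267

variable {M : Type} [TopologicalSpace M] [ChartedSpace C2 M] [T2Space M]

theorem Cov.gd_per (C : Cov M) {σ : C.I → M → ℂ}
    (h : ∀ (i : C.I) p, σ (i.1, i.2 - 1) (C.g p) = σ i p) (k : ℤ) (i : C.I) (p : M) :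
    σ (i.1, i.2 - k) ((C.g ^ k) p) = σ i p := by
  induction k using Int.induction_on with
  | zero => simp
  | succ k ih => rw [C.AB_succ, ← sub_sub, h (i.1, i.2 - k), ih]
  | pred k ih =>
    rw [← h, ← C.AB_succ, sub_add_cancel, ← ih, sub_sub, sub_add_cancel]

theorem Cov.gd_bd (C : Cov M) {σ : C.I → M → ℂ}
    (h : ∀ i j, ∀ p ∈ (C.ch i).source ∩ (C.ch j).source, HolAt (σ j / σ i) p) :
    ∃ B : ℝ, ∀ (a : C.ι) j, ∀ p ∈ C.U (a, 0) 2 ∩ C.U j 2,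
      ‖σ j p / σ (a, 0) p‖ ≤ B ∧ ‖σ (a, 0) p / σ j p‖ ≤ B := by
  have h1 : ∀ i j : C.I, ∃ B : ℝ, ∀ p ∈ C.U i 2 ∩ C.U j 2, ‖σ j p / σ i p‖ ≤ B := fun i j => by
    obtain ⟨B, hB⟩ := ((C.isCompact_cl i (r := 2) (by norm_num)).inter
      (C.isCompact_cl j (r := 2) (by norm_num))).exists_bound_of_continuousOn (f := σ j / σ i)
      fun q hq => (h i j q ⟨hq.1.1, hq.2.1⟩).continuousAt.continuousWithinAt
    exact ⟨B, fun p hp => hB p ⟨⟨hp.1.1, hp.1.2.le⟩, hp.2.1, hp.2.2.le⟩⟩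
  choose B hB using h1
  have h2 : ∀ a : C.ι, ∃ D, ∀ j ∈ C.nb (a, 0), max (B (a, 0) j) (B j (a, 0)) ≤ D := fun a => by
    obtain ⟨D, hD⟩ := ((C.nb (a, 0)).finite_toSet.image
      fun j => max (B (a, 0) j) (B j (a, 0))).bddAbove
    exact ⟨D, fun j hj => hD (mem_image_of_mem _ hj)⟩
  choose D hD using h2
  obtain ⟨E, hE⟩ := (finite_range D).bddAbove
  refine ⟨E, fun a j p hp => ?_⟩
  have h3 := (hD a j (C.mem_nb hp.1.1 hp.2.1)).trans (hE ⟨a, rfl⟩)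
  exact ⟨(hB _ _ p hp).trans ((le_max_left _ _).trans h3),
    (hB _ _ p hp.symm).trans ((le_max_right _ _).trans h3)⟩

theorem Cov.fr_of (C : Cov M) {u : M → M → ℂ} (hu : IsBundle HolAt u) (hp : pull C.g u = u) :
    ∃ (F : C.I → M → ℂ) (l : M → ℂ) (B : ℝ), C.Fr F 2 B ∧ (∀ p, l p ≠ 0) ∧
      (∀ p, l (C.g p) = l p) ∧ ∀ s, Sec u s → C.SecF F (s / l) := by
  obtain ⟨σ, h1, h2⟩ := Cov.LT4_sec (C := C) (N := 1) (by rw [pow_one]; exact hp) fun i =>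
    oka_frame hu (C.isCh i).hol (C.ch_target i)
  simp only [Nat.cast_one, zpow_one] at h2
  have h3 : ∀ i j, ∀ p ∈ (C.ch i).source ∩ (C.ch j).source, HolAt (σ j / σ i) p :=
    fun i j p h => Cov.LT4_ratio hu (h1 i p h.1).1 (h1 i p h.1).2 (h1 j p h.2).2
  have h4 : ∀ p, σ (C.idx p) p ≠ 0 := fun p => (h1 _ p (C.mem_U_idx p).1).1
  obtain ⟨B, hB⟩ := C.gd_bd h3
  refine ⟨fun i p => σ (C.idx p) p / σ i p, fun p => σ (C.idx p) p, B, ⟨fun i p h => ?_,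
    fun i j p h => ?_, fun i p h => ?_⟩, h4, fun p => ?_, fun s hs i p h => ?_⟩
  · exact div_ne_zero (h4 p) (h1 i p h.1).1
  · refine (h3 i j p ⟨h.1.1, h.2.1⟩).congr (.of_forall fun q => ?_)
    simp only [Pi.div_apply]
    rw [div_div_div_cancel_left' _ _ (h4 q)]
  · have k1 := (C.U_shift i i.2 2 p).2 h
    have k2 := (C.U_shift _ i.2 2 p).2 (C.U_mono _ one_le_two (C.mem_U_idx p))
    have k3 := C.gd_per h2 i.2 i p
    rw [sub_self] at k1 k3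
    have k4 := hB _ _ _ ⟨k1, k2⟩
    rwa [k3, C.gd_per h2, ← inv_div (σ (C.idx p) p)] at k4
  · simp only [C.idx_g, h2]
  · refine (Cov.LT4_ratio hu (h1 i p h.1).1 (h1 i p h.1).2 (hs p)).congr (.of_forall fun q => ?_)
    simp only [Pi.div_apply, Pi.mul_apply]
    rw [mul_comm, div_mul_div_cancel₀ (h4 q)]

end Vale.Agent.P267
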