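import Vale.Agent.P267N.GE2

/-! P267, removing the diagonalisation theorem. -/

open scoped Manifold ContDiff Topology BoundedContinuousFunction
open Filter Metric Set

noncomputable section

namespace Vale.Agent.P267

theorem ge3_riesz {W : Type} (G : W → W) (v : ℕ → W → ℂ) (hb : ∀ m, ∃ B, ∀ p, ‖v m p‖ ≤ B)
    (μ : ℕ → ℂ) (hμ : Function.Injective μ) (hμ0 : ∀ m, μ m ≠ 0) (h0 : ∀ m, v m ≠ 0)
    (hA : ∀ m p, v m (G p) = μ m * v m p) (P : (W → ℂ) → Prop) (hv : ∀ m, P (v m))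
    (ha : ∀ y z, P y → P z → P (y + z)) (hs : ∀ (a : ℂ) y, P y → P (a • y)) :
    ∃ x : ℕ → W → ℂ, (∀ m, P (x m) ∧ ∀ p, ‖x m p‖ ≤ 1) ∧ ∀ l m, l < m → ∀ ε, 0 ≤ ε →
      (∀ p, ‖x m (G p) - x l (G p)‖ ≤ ε) → ‖μ m‖ / 2 ≤ ε := by
  let : TopologicalSpace W := ⊥
  have : DiscreteTopology W := ⟨rfl⟩
  choose B hB using hb
  let G' : C(W, W) := ⟨G, continuous_of_discreteTopology⟩
  let u : ℕ → W →ᵇ ℂ := fun m =>
    BoundedContinuousFunction.ofNormedAddCommGroupDiscrete (v m) (B m) (hB m)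
  obtain ⟨x, h2, h3⟩ := ne_riesz (BoundedContinuousFunction.compContinuousCLM ℂ ℂ G').toLinearMap u
    μ hμ (fun m h => h0 m (funext fun p => DFunLike.congr_fun h p))
    fun m => BoundedContinuousFunction.ext fun p => hA m p
  have h4 : ∀ y ∈ Submodule.span ℂ (range u), P y := fun y hy => by
    induction hy using Submodule.span_induction with
    | mem y hy =>
      obtain ⟨m, rfl⟩ := hy
      exact hv m
    | zero => simpa using hs 0 _ (hv 0)
    | add y z _ _ hy hz => exact ha _ _ hy hz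
    | smul a y _ hy => exact hs a _ hy
  refine ⟨fun m => x m, fun m => ⟨h4 _ (h2 m).1, fun p => ?_⟩, fun l m hlm ε hε h => ?_⟩
  · rw [← (h2 m).2]
    exact (x m).norm_coe_le_norm _
  · exact ((h3 l m hlm).resolve_right (hμ0 m)).trans
      ((BoundedContinuousFunction.norm_le hε).2 h)

variable {M : Type} [TopologicalSpace M] [ChartedSpace C2 M] [T2Space M]

theorem Cov.fr_seq (C : Cov M) {F : C.I → M → ℂ} {B : ℝ} (hF : C.Fr F 2 B) {c : ℕ → ℝ}
    (hc : Function.Injective c) (hc' : ∀ m, c m ∈ Icc (-1 : ℝ) 1) {f : ℕ → M → ℂ}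
    (k1 : ∀ m, C.SecF F (f m)) (k2 : ∀ m p, f m (C.g p) = Complex.exp (c m) * f m p)
    (k3 : ∀ m, f m ≠ 0) : False := by
  obtain ⟨θ, b, hθ, hs⟩ := C.sa_sub_fr hF (by norm_num)
  obtain ⟨l, hl1, hlb⟩ : ∃ l : ℝ, 1 ≤ l ∧ b < l * θ := by
    refine ⟨|b| / θ + 1, by linarith [div_nonneg (abs_nonneg b) hθ.le], ?_⟩
    rw [add_mul, div_mul_cancel₀ _ hθ.ne']
    linarith [le_abs_self b]
  obtain ⟨N, hN, hN'⟩ : ∃ N : ℕ, 2 * C.R ≤ N ∧ (1 : ℝ) ≤ N := by
    obtain ⟨N, hN⟩ := exists_nat_ge (max (2 * C.R) 1)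
    exact ⟨N, (le_max_left _ _).trans hN, (le_max_right _ _).trans hN⟩
  have k4 : ∀ m (k : ℤ) p, f m ((C.g ^ k) p) = Complex.exp (k * c m) * f m p := fun m k p => by
    refine Cov.cb_ind (P := fun k => f m ((C.g ^ k) p) = Complex.exp (k * c m) * f m p) (by simp)
      (fun k => ?_) k
    rw [C.cb_zpow_add, zpow_one, k2]
    push_cast
    rw [add_mul, one_mul, Complex.exp_add, mul_assoc, mul_right_inj' (Complex.exp_ne_zero _)]
  let w : ℕ → M → ℂ := fun m p => f m p * (Real.exp (l * C.t p) : ℂ)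
  have k5 : ∀ m (k : ℤ) p, w m ((C.g ^ k) p) = (Real.exp (k * (c m + l)) : ℂ) * w m p :=
    fun m k p => by
      simp only [w, k4, C.cb_t, mul_add]
      push_cast
      simp only [Complex.exp_add]
      rw [mul_comm (l : ℂ) (k : ℂ)]
      ring
  have hn : ∀ (Y : ℂ) (p : M), ‖Y * (Real.exp (l * C.t p) : ℂ)‖ = ‖Y‖ * Real.exp (l * C.t p) :=
    fun Y p => by rw [norm_mul, Complex.norm_real, Real.norm_of_nonneg (Real.exp_pos _).le]
  have k6 : ∀ m, ∃ D, ∀ p, C.t p ≤ 0 → ‖w m p‖ ≤ D := fun m => by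
    obtain ⟨D, hD⟩ := (k1 m).ge_bd hF 0 1
    refine ⟨D * Real.exp l, fun p hp => ?_⟩
    set j := ⌈-C.t p⌉₊
    have e1 : -C.t p ≤ j := Nat.le_ceil _
    have e2 : (j : ℝ) < -C.t p + 1 := Nat.ceil_lt_add_one (neg_nonneg.2 hp)
    have e3 := congrArg norm (k5 m j p)
    rw [norm_mul (_ : ℂ) (w m p), Complex.norm_real, Real.norm_of_nonneg (Real.exp_pos _).le] at e3
    have e4 : C.t ((C.g ^ (j : ℤ)) p) ∈ Icc (0 : ℝ) 1 := by
      rw [C.cb_t]
      push_cast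
      constructor <;> linarith
    have e5 : 1 ≤ Real.exp (((j : ℤ) : ℝ) * (c m + l)) :=
      Real.one_le_exp (mul_nonneg (by positivity) (by linarith [(hc' m).1]))
    refine (le_mul_of_one_le_left (norm_nonneg _) e5).trans (e3.symm.trans_le ?_)
    rw [hn]
    exact mul_le_mul (hD _ e4) (Real.exp_le_exp.2 (mul_le_of_le_one_right (by linarith) e4.2))
      (Real.exp_pos _).le ((norm_nonneg _).trans (hD _ e4))
  have hG : ∀ p, C.t p ≤ 0 → C.t ((C.g ^ (-N : ℤ)) p) ≤ -N := fun p hp => by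
    rw [C.cb_t]
    push_cast
    linarith
  obtain ⟨x, h2, h3⟩ := ge3_riesz (W := {p : M // C.t p ≤ 0})
    (fun p => ⟨(C.g ^ (-N : ℤ)) p, (hG p p.2).trans (by linarith)⟩) (fun m p => w m p)
    (fun m => (k6 m).imp fun D hD p => hD p p.2)
    (fun m => (Real.exp (((-N : ℤ) : ℝ) * (c m + l)) : ℂ))
    (fun a b h => by
      have e := Real.exp_injective (Complex.ofReal_injective h)
      push_cast at e
      exact hc (add_right_cancel (mul_left_cancel₀ (by linarith) e)))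
    (fun m => Complex.ofReal_ne_zero.2 (Real.exp_ne_zero _))
    (fun m h => by
      obtain ⟨p, hp⟩ := Function.ne_iff.1 (k3 m)
      obtain ⟨j, hj⟩ := exists_nat_ge (C.t p)
      have e := congrFun h ⟨(C.g ^ (-j : ℤ)) p, by
        rw [C.cb_t]
        push_cast
        linarith⟩
      exact mul_ne_zero (Complex.ofReal_ne_zero.2 (Real.exp_ne_zero _))
        (mul_ne_zero hp (Complex.ofReal_ne_zero.2 (Real.exp_ne_zero _)))
        ((k5 m (-j) p).symm.trans e))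
    (fun m p => k5 m (-N) p)
    (fun y => ∃ Y : M → ℂ, C.SecF F Y ∧ ∀ p, y p = Y p * (Real.exp (l * C.t p) : ℂ))
    (fun m => ⟨f m, k1 m, fun _ => rfl⟩)
    (fun y z ⟨Y, a1, a2⟩ ⟨Z, b1, b2⟩ => ⟨Y + Z, a1.ge_add b1, fun p => by
      rw [Pi.add_apply, Pi.add_apply, a2, b2, add_mul]⟩)
    (fun a y ⟨Y, a1, a2⟩ => ⟨a • Y, a1.ge_smul a, fun p => by
      rw [Pi.smul_apply, Pi.smul_apply, a2, smul_mul_assoc]⟩)
  choose X h5 h6 using fun m => (h2 m).1
  obtain ⟨j, m, hjm, h7⟩ := C.fr_cpt hF hs (by linarith) hlb h5 (fun m p hp => by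
    rw [← hn, ← h6 m ⟨p, hp⟩]
    exact (h2 m).2 _) (ε := Real.exp (-N * (1 + l)) / 4) (T := -N) (by positivity) (by linarith)
    (by linarith)
  have h8 := h3 j m hjm (Real.exp (-N * (1 + l)) / 4) (by positivity) fun p => by
    rw [h6, h6, ← sub_mul, hn]
    exact h7 _ (hG p p.2)
  rw [Complex.norm_real, Real.norm_of_nonneg (Real.exp_pos _).le] at h8
  have h9 : Real.exp (-N * (1 + l)) ≤ Real.exp (((-N : ℤ) : ℝ) * (c m + l)) := by
    refine Real.exp_le_exp.2 ?_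
    push_cast
    nlinarith [(hc' m).2]
  linarith [Real.exp_pos (-N * (1 + l))]

end Vale.Agent.P267
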