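import Vale.Agent.P267N.GC
import Vale.Agent.P267N.GD
import Vale.Agent.P267N.GE3
import Vale.Agent.P267D.Nef

/-! P267: a generic flat twist has no sections. -/

open scoped Manifold ContDiff Topology
open Filter Metric Set

noncomputable section

namespace Vale.Agent.P267

variable {M : Type} [TopologicalSpace M] [ChartedSpace C2 M] [T2Space M]

theorem Cov.eig_fin (C : Cov M) {u : M → M → ℂ} (hu : IsBundle HolAt u) (hp : pull C.g u = u) :
    {a : ℝ | a ∈ Icc (-1 : ℝ) 1 ∧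
      ∃ s : M → ℂ, s ≠ 0 ∧ Sec u s ∧ ∀ p, s (C.g p) = Complex.exp a * s p}.Finite := by
  by_contra hn
  obtain ⟨F, l, B, hF, h0, h1, h2⟩ := C.fr_of hu hp
  have hi := Set.Infinite.natEmbedding _ hn
  choose s k1 k2 k3 using fun m => (hi m).2.2
  refine C.fr_seq hF (c := fun m => hi m) (fun a b h => hi.injective (Subtype.ext h))
    (fun m => (hi m).2.1) (fun m => h2 _ (k2 m)) (fun m p => ?_) fun m h => k1 m ?_
  · simp only [Pi.div_apply]
    rw [k3, h1, mul_div_assoc]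
  · funext p
    exact (div_eq_zero_iff.1 (congrFun h p)).resolve_right (h0 p)

variable {X : Type} [TopologicalSpace X] [ChartedSpace C2 X] [T2Space X] [IsManifold 𝓘(ℂ, C2) ω X]
  [IsManifold 𝓘(ℂ, C2) ω M] [CompactSpace X] {π : M → X} {g : M ≃ₜ M} {t : M → ℝ}
  {u : M → M → ℂ}

theorem IsCover.canon_per (h : IsCover π g t) :
    IsBundle HolAt (pull π (canon X)) ∧ pull g (pull π (canon X)) = pull π (canon X) := by
  obtain ⟨C, rfl, rfl⟩ := h.nef_cov
  obtain ⟨k1, k2, -⟩ := Cov.canon_kf h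
  exact ⟨k1, by simpa only [pow_one] using k2 1⟩

theorem IsCover.twist (h : IsCover π g t) (hu : IsBundle HolAt u) (hp : pull g u = u) :
    ∃ a : ℝ, H0 g (tw t a u) = ⊥ ∧ H0 g (pull π (canon X) / tw t a u) = ⊥ := by
  obtain ⟨k1, k2⟩ := h.canon_per
  obtain ⟨C, rfl, rfl⟩ := h.nef_cov
  have hp' : pull C.g (pull π (canon X) / u) = pull π (canon X) / u := by
    funext p q
    exact congrArg₂ (· / ·) (congrFun (congrFun k2 p) q) (congrFun (congrFun hp p) q)
  have f1 := C.eig_fin hu hp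
  have f2 := (C.eig_fin (div_bundle k1 hu) hp').preimage (f := fun a : ℝ => -a)
    neg_injective.injOn
  obtain ⟨a, ha, hn⟩ := (Icc_infinite (show (-1 : ℝ) < 1 by norm_num)).exists_notMem_finite
    (f1.union f2)
  refine ⟨a, not_not.1 fun e => hn (Or.inl ⟨ha, tw_H0 h.shift e⟩), not_not.1 fun e => hn
    (Or.inr ⟨⟨by linarith [ha.2], by linarith [ha.1]⟩, tw_H0 h.shift ?_⟩)⟩
  rwa [div_tw] at e

theorem IsCover.part (h : IsCover π g t) : ∃ (l : ℕ) (P : Fin l → OpenPartialHomeomorph M C2)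
    (ψ : Fin l → M → ℝ), IsPartition g P ψ := by
  obtain ⟨C, rfl, rfl⟩ := h.nef_cov
  obtain ⟨n, P, ψ, hP, -⟩ := C.partition one_pos
  exact ⟨n, P, ψ, by simpa only [pow_one] using hP⟩

theorem IsCover.conn_of (h : IsCover π g t) (hu : IsBundle HolAt u) (hp : pull g u = u) :
    ∃ θ, IsConnection g u θ := by
  obtain ⟨C, rfl, rfl⟩ := h.nef_cov
  have hp' : pull (C.g ^ 1 : M ≃ₜ M) u = u := by rwa [pow_one]
  obtain ⟨Φ, l, hΦ, hΦp, hl0, hlp, hls⟩ := Cov.frames_of one_pos hu hp'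
    fun i => oka_frame hu (C.isCh i).hol (C.ch_target i)
  have hS : C.SFr Φ := hΦ.sFr (by norm_num)
  obtain ⟨ϑ, hϑ, -⟩ := (hS.can.toS hS hΦp.can).equiv (by rw [pow_one]; exact h.hol) hS.bundle
    (LT5_sm hu) hΦp.bundle hp' hl0 hlp hls
  exact ⟨ϑ, by rwa [pow_one] at hϑ⟩

end Vale.Agent.P267
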