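import Vale.Agent.P267K.NoEig

/-! P267, removing the diagonalisation theorem. -/

open scoped Manifold ContDiff Topology BoundedContinuousFunction
open Filter Metric Set

noncomputable section

namespace Vale.Agent.P267

variable {M : Type} [TopologicalSpace M] [ChartedSpace C2 M] [T2Space M]

theorem Cov.Sub.half {C : Cov M} {s : M → ℂ} {θ b l T B S : ℝ} (h : C.Sub s θ fun _ => b)
    (hl : 0 ≤ l) (hb : b < l * θ) (hB : ∀ p, C.t p ≤ T → ‖s p‖ * Real.exp (l * C.t p) ≤ B)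
    (hS : ∀ p, C.t p ∈ Icc (T - (2 * C.R + 1)) T → ‖s p‖ * Real.exp (l * C.t p) ≤ S)
    (h0 : 0 ≤ S) {p : M} (hp : C.t p ≤ T) : ‖s p‖ * Real.exp (l * C.t p) ≤ S := by
  have : Nonempty {q // C.t q ≤ T} := ⟨⟨p, hp⟩⟩
  set φ : {q // C.t q ≤ T} → ℝ := fun q => ‖s q‖ * Real.exp (l * C.t q) with hφ
  have hbd : BddAbove (range φ) := ⟨B, by
    rintro _ ⟨q, rfl⟩
    exact hB q q.2⟩
  have h1 : ⨆ q, φ q ≤ max S (Real.exp (b - l * θ) * ⨆ q, φ q) := ciSup_le fun q => by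
    by_cases hq : T - (2 * C.R + 1) ≤ C.t q
    · exact le_max_of_le_left (hS q ⟨hq, q.2⟩)
    · obtain ⟨y, k1, k2⟩ := h q l hl
      have k3 : C.t y ≤ T := by linarith [(abs_le.1 k1).2]
      refine le_max_of_le_right (le_trans ?_
        (mul_le_mul_of_nonneg_left (le_ciSup hbd ⟨y, k3⟩) (Real.exp_pos _).le))
      have k4 := mul_le_mul_of_nonneg_right k2 (Real.exp_pos (l * C.t q - l * θ)).le
      have e1 : Real.exp (l * C.t q) = Real.exp (l * θ) * Real.exp (l * C.t q - l * θ) := by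
        rw [← Real.exp_add, add_sub_cancel]
      have e2 : Real.exp (b - l * θ) * Real.exp (l * C.t y) = Real.exp b *
          (Real.exp (l * (C.t y - C.t q)) * Real.exp (l * C.t q - l * θ)) := by
        rw [← Real.exp_add, ← Real.exp_add, ← Real.exp_add]
        exact congrArg _ (by ring)
      change ‖s q‖ * Real.exp (l * C.t q) ≤ Real.exp (b - l * θ) * (‖s y‖ * Real.exp (l * C.t y))
      rw [e1, mul_left_comm (Real.exp (b - l * θ)), e2, ← mul_assoc]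
      exact k4.trans_eq (by ring)
  have h2 : ⨆ q, φ q ≤ S := by
    rcases le_max_iff.1 h1 with k | k
    · exact k
    · have : Real.exp (b - l * θ) < 1 := Real.exp_lt_one_iff.2 (by linarith)
      nlinarith
  exact (le_ciSup hbd ⟨p, hp⟩).trans h2

theorem Cov.SecF.ge_add {C : Cov M} {F : C.I → M → ℂ} {s s' : M → ℂ} (h : C.SecF F s)
    (h' : C.SecF F s') : C.SecF F (s + s') := by
  intro i p hp
  rw [mul_add]
  exact cb_add (h i p hp) (h' i p hp)

theorem Cov.SecF.ge_smul {C : Cov M} {F : C.I → M → ℂ} {s : M → ℂ} (h : C.SecF F s) (a : ℂ) :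
    C.SecF F (a • s) := by
  intro i p hp
  rw [mul_smul_comm]
  exact cb_smul a (h i p hp)

theorem Cov.SecF.ge_bd {C : Cov M} {F : C.I → M → ℂ} {B : ℝ} (hF : C.Fr F 2 B) {s : M → ℂ}
    (h : C.SecF F s) (a b : ℝ) : ∃ D, ∀ p, C.t p ∈ Icc a b → ‖s p‖ ≤ D := by
  refine (C.isCompact_t a b).induction_on (p := fun K => ∃ D, ∀ p ∈ K, ‖s p‖ ≤ D) ⟨0, by simp⟩
    (fun _ _ k1 ⟨D, k2⟩ => ⟨D, fun p hp => k2 p (k1 hp)⟩)
    (fun _ _ ⟨D, k1⟩ ⟨D', k2⟩ => ⟨max D D', fun p hp =>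
      hp.elim (fun k => le_max_of_le_left (k1 p k)) fun k => le_max_of_le_right (k2 p k)⟩)
    fun p _ => ?_
  have h1 := (cb_cont (h _ p (C.cb_mem_idx p))).norm.eventually
    (eventually_le_nhds (lt_add_one ‖(F (C.idx p) * s) p‖))
  refine ⟨_, mem_nhdsWithin_of_mem_nhds (h1.and ((C.cb_open _ 1).mem_nhds (C.cb_mem_idx p))),
    B * (‖(F (C.idx p) * s) p‖ + 1), fun q hq => ?_⟩
  have h2 := C.cb_mono (C.idx p) one_le_two hq.2
  have e : s q = (F (C.idx p) q)⁻¹ * (F (C.idx p) * s) q := by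
    rw [Pi.mul_apply, inv_mul_cancel_left₀ (hF.ne _ q h2)]
  rw [e, norm_mul]
  exact mul_le_mul (hF.bd _ q h2).2 hq.1 (norm_nonneg _)
    ((norm_nonneg _).trans (hF.bd _ q h2).2)

end Vale.Agent.P267
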