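import Vale.Agent.P267N.GE1

/-! P267, removing the diagonalisation theorem. -/

open scoped Manifold ContDiff Topology BoundedContinuousFunction
open Filter Metric Set

noncomputable section

namespace Vale.Agent.P267

variable {M : Type} [TopologicalSpace M] [ChartedSpace C2 M] [T2Space M]

theorem Cov.fr_cpt (C : Cov M) {F : C.I → M → ℂ} {B θ b l : ℝ} (hF : C.Fr F 2 B)
    (hs : ∀ s, C.SecF F s → C.Sub s θ fun _ => b) (hl : 0 ≤ l) (hb : b < l * θ) {X : ℕ → M → ℂ}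
    (hX : ∀ m, C.SecF F (X m)) (h1 : ∀ m p, C.t p ≤ 0 → ‖X m p‖ * Real.exp (l * C.t p) ≤ 1)
    {ε T : ℝ} (hε : 0 < ε) (hT : T ≤ -(2 * C.R)) (hT0 : T ≤ 0) :
    ∃ j m, j < m ∧ ∀ p, C.t p ≤ T → ‖X m p - X j p‖ * Real.exp (l * C.t p) ≤ ε := by
  have hb' : ∀ m p, C.t p ≤ 0 → ‖X m p‖ ≤ Real.exp (-(l * C.t p)) := fun m p hp => by
    rw [Real.exp_neg, ← one_div, le_div_iff₀ (Real.exp_pos _)]
    exact h1 m p hp
  have hU : ∀ i, ∀ q ∈ C.U i 1, q ∈ C.U i 2 := fun i q hq => ⟨hq.1, hq.2.trans one_lt_two⟩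
  have h0 : ∀ p, ∃ y, C.t p ≤ 0 → Tendsto (fun m => X m p) (hyperfilter ℕ) (𝓝 y) := fun p => by
    by_cases hp : C.t p ≤ 0
    · exact (cb_lim _ (.of_forall fun m => hb' m p hp)).imp fun _ h _ => h
    · exact ⟨0, fun h => absurd h hp⟩
  choose Y hY using h0
  have h2 : ∀ᶠ m in hyperfilter ℕ, ∀ p, C.t p ∈ Icc (T - (2 * C.R + 1)) T →
      ‖X m p - Y p‖ ≤ ε / 2 := by
    by_contra hn
    rw [← Ultrafilter.eventually_not] at hn
    obtain ⟨m₀, hm₀⟩ := hn.exists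
    obtain ⟨p₀, -⟩ := not_forall.1 hm₀
    have h3 : ∀ m, ∃ y, (¬ ∀ p, C.t p ∈ Icc (T - (2 * C.R + 1)) T → ‖X m p - Y p‖ ≤ ε / 2) →
        C.t y ∈ Icc (T - (2 * C.R + 1)) T ∧ ε / 2 < ‖X m y - Y y‖ := fun m => by
      by_cases h : ∀ p, C.t p ∈ Icc (T - (2 * C.R + 1)) T → ‖X m p - Y p‖ ≤ ε / 2
      · exact ⟨p₀, fun h' => absurd h h'⟩
      · obtain ⟨y, hy⟩ := not_forall.1 h
        exact ⟨y, fun _ => ⟨(Classical.not_imp.1 hy).1, not_le.1 (Classical.not_imp.1 hy).2⟩⟩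
    choose y hy using h3
    have h4 := hn.mono hy
    obtain ⟨p, -, hp⟩ := (C.isCompact_t (T - (2 * C.R + 1)) T).ultrafilter_le_nhds
      ((hyperfilter ℕ).map y) (le_principal_iff.2 (mem_map.2 (h4.mono fun m k => k.1)))
    have hpT : C.t p ≤ T := le_of_tendsto ((C.continuous_t.tendsto p).comp hp)
      (h4.mono fun m k => k.1.2)
    have h5 : ∀ q ∈ C.U (C.idx p) 1, C.t q ≤ 0 := fun q hq => by
      linarith [abs_le.1 (C.cb_lev hq), abs_le.1 (C.cb_lev (C.cb_mem_idx p))]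
    obtain ⟨G, hG⟩ := C.cb_montel_ch (hyperfilter ℕ) (C.idx p) (r := 1)
      (B := B * Real.exp (l * ((C.idx p).2 + C.R))) (by norm_num)
      (f := fun m => F (C.idx p) * X m) (.of_forall fun m q hq => ⟨hX m _ q hq, by
        have a := (hF.bd _ q (hU _ q hq)).1
        rw [Pi.mul_apply, norm_mul]
        refine mul_le_mul a ((hb' m q (h5 q hq)).trans (Real.exp_le_exp.2 ?_)) (norm_nonneg _)
          ((norm_nonneg _).trans a)
        rw [← mul_neg]
        exact mul_le_mul_of_nonneg_left (by linarith [abs_le.1 (C.cb_lev hq)]) hl⟩)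
    have h6 := ((hG p (C.cb_mem_idx p)).2 y hp).sub
      ((cb_cont (hG p (C.cb_mem_idx p)).1).tendsto.comp hp)
    rw [sub_self] at h6
    have h7 : ε / 2 ≤ B * ‖(0 : ℂ)‖ := ge_of_tendsto (h6.norm.const_mul B) (by
      filter_upwards [h4, hp ((C.cb_open _ 1).mem_nhds (C.cb_mem_idx p))] with m k1 k2
      rw [Function.comp_apply, tendsto_nhds_unique ((hG _ k2).2 _ tendsto_const_nhds)
        ((hY _ (h5 _ k2)).const_mul (F (C.idx p) (y m))), Pi.mul_apply, ← mul_sub]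
      refine k1.2.le.trans ?_
      rw [← inv_mul_cancel_left₀ (hF.ne _ _ (hU _ _ k2)) (X m (y m) - Y (y m)), norm_mul,
        mul_inv_cancel_left₀ (hF.ne _ _ (hU _ _ k2))]
      exact mul_le_mul_of_nonneg_right (hF.bd _ _ (hU _ _ k2)).2 (norm_nonneg _))
    rw [norm_zero, mul_zero] at h7
    linarith
  obtain ⟨j, hj⟩ := h2.exists
  obtain ⟨m, hm, hjm⟩ := (h2.and (Nat.hyperfilter_le_atTop (eventually_gt_atTop j))).exists
  have e : X m + (-1 : ℂ) • X j = fun q => X m q - X j q := by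
    funext q
    simp only [Pi.add_apply, neg_one_smul, Pi.neg_apply, sub_eq_add_neg]
  have h8 := hs _ ((hX m).ge_add ((hX j).ge_smul (-1)))
  rw [e] at h8
  refine ⟨j, m, hjm, fun p hp => h8.half hl hb (B := 1 + 1) (fun q hq => ?_) (fun q hq => ?_)
    hε.le hp⟩
  · refine (mul_le_mul_of_nonneg_right (norm_sub_le _ _) (Real.exp_pos _).le).trans ?_
    rw [add_mul]
    exact add_le_add (h1 m q (hq.trans hT0)) (h1 j q (hq.trans hT0))
  · have := norm_sub_le_norm_sub_add_norm_sub (X m q) (Y q) (X j q)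
    rw [norm_sub_rev (Y q)] at this
    refine (mul_le_of_le_one_right (norm_nonneg _) (Real.exp_le_one_iff.2
      (mul_nonpos_of_nonneg_of_nonpos hl (hq.2.trans hT0)))).trans (this.trans ?_)
    linarith [hm q hq, hj q hq]

end Vale.Agent.P267
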